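import Vale.Agent.P141.H377.CapP2
import Vale.Agent.P141.H585.PairRXS

/-!
# P141, line (A), TF, PM, hub `x1`: the hypotheses `cap`, `capC`, `hBo` of `H585.PairRX.RX_BC`

* `cap_RX` : the Gram matrices of the partner `(0 ; b)` on the shifted grid are at most `4 th²`;
* `capC_RX` : the cap of the stack;
* `BoT`, `hBo_T` : the smallest predicate with `hBo`; `BoT_mono`.
-/

namespace Vale.Agent.P141.H377.B1

open Finset Matrix
open Vale.Agent.P075 (Ix val)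
open Vale.Agent.P141.PL (Pt iv ix mem_iv cx)
open Vale.Agent.P141.PL.H315 (Tri)
open Vale.Agent.P141.H43 (nsq av)
open Vale.Agent.P141.H297.Ch (XH Py sl)
open Vale.Agent.P141.H205 (CapS)
open Vale.Agent.P141.H38.Q (AfC)
open Vale.Agent.P141.H677.Sk (FamA FamV Slt FDs SlotN)
open Vale.Agent.P141.H747 (RgS shB shC RgS_le MSb capS_sft)
open Vale.Agent.P141.H585.PairRX (RR DR cR)
open Vale.Agent.P141.H377.P1 (cC1 capC_P1 psd_num)

noncomputable section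

open scoped Classical

/-- **the adjoint form of a cap** : the outer variable second, the label as an index -/
theorem capS_adj {κ : Type*} [Fintype κ] {c : ℝ} {a k : ℕ} {F : ℤ → ℤ → κ → ℝ} {n m : ℤ}
    (hc : 0 ≤ c) (h : CapS c a k F n m) (ψ : ℤ → κ → ℝ) :
    ∑ y ∈ iv k m, (∑ x ∈ iv a n, ψ x ⬝ᵥ F x y) ^ 2 ≤
      c * (2 ^ a * 2 ^ k) * ∑ x ∈ iv a n, ψ x ⬝ᵥ ψ x := by
  set w : ℤ → ℝ := fun y => ∑ x ∈ iv a n, ψ x ⬝ᵥ F x y with hw
  set T : ℝ := ∑ y ∈ iv k m, w y ^ 2 with hT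
  set Q : ℝ := ∑ x ∈ iv a n, ψ x ⬝ᵥ ψ x with hQ
  have t0 : 0 ≤ T := sum_nonneg fun _ _ => sq_nonneg _
  have q0 : 0 ≤ Q := sum_nonneg fun x _ => by
    unfold dotProduct
    exact sum_nonneg fun i _ => mul_self_nonneg _
  have h1 := h w
  have e1 : T = ∑ x ∈ iv a n, ∑ l, ψ x l * ∑ y ∈ iv k m, w y * F x y l := by
    have e2 : ∀ x l, ψ x l * ∑ y ∈ iv k m, w y * F x y l
        = ∑ y ∈ iv k m, w y * (ψ x l * F x y l) := by
      intro x l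
      rw [mul_sum]
      exact sum_congr rfl fun y _ => by ring
    simp only [e2]
    have e3 : ∀ x, ∑ l, ∑ y ∈ iv k m, w y * (ψ x l * F x y l)
        = ∑ y ∈ iv k m, w y * (ψ x ⬝ᵥ F x y) := by
      intro x
      rw [sum_comm]
      exact sum_congr rfl fun y _ => by rw [dotProduct, mul_sum]
    simp only [e3]
    rw [sum_comm]
    refine sum_congr rfl fun y _ => ?_
    rw [← mul_sum, sq]
  have h2 : T ^ 2 ≤ Q * ∑ x ∈ iv a n, ∑ l, (∑ y ∈ iv k m, w y * F x y l) ^ 2 := by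
    have h3 := sum_mul_sq_le_sq_mul_sq ((iv a n) ×ˢ (univ : Finset κ)) (fun p => ψ p.1 p.2)
      fun p => ∑ y ∈ iv k m, w y * F p.1 y p.2
    rw [sum_product, sum_product, sum_product] at h3
    rw [e1]
    refine h3.trans (le_of_eq ?_)
    congr 1
    rw [hQ]
    refine sum_congr rfl fun x _ => ?_
    unfold dotProduct
    exact sum_congr rfl fun l _ => by ring
  rcases t0.eq_or_lt with h6 | h6
  · rw [← h6]
    positivity
  · have h7 : T * T ≤ T * (c * (2 ^ a * 2 ^ k) * Q) := by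
      calc T * T = T ^ 2 := (sq T).symm
        _ ≤ Q * ∑ x ∈ iv a n, ∑ l, (∑ y ∈ iv k m, w y * F x y l) ^ 2 := h2
        _ ≤ Q * (c * (2 ^ a * 2 ^ k) * T) := mul_le_mul_of_nonneg_left h1 q0
        _ = _ := by ring
    exact le_of_mul_le_mul_left h7 h6

/-- the Gram matrix with the label as an index from the adjoint cap -/
theorem py_of_capS {κ : Type*} [Fintype κ] [DecidableEq κ] {c : ℝ} {k : ℕ} {F : ℤ → ℤ → κ → ℝ}
    {n m : ℤ} (hc : 0 ≤ c) (h : CapS c k k F m n) :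
    (c • (1 : Matrix (Ix k × κ) (Ix k × κ) ℝ) - Py (sl k m F) k n).PosSemidef :=
  psd_num fun v => H377.Q.av_of_sum (fun ψ => capS_adj hc h ψ) v

variable {ι : Type} [Fintype ι] [DecidableEq ι] {q : H401.Num} {n : ℕ} {ez : ℝ}
  {F1 F2 F3 : ℕ → Pt → ℝ} {K : ℕ} {x : Pt} {s r P : ℝ}
  {U : Tri} {g : ℤ → ℤ → ℝ} {u v : ℤ → ℤ → ι → ℝ} {A : FamA} {b C : FamV ι}
  {Q1 Q2 Q3 : ℕ → Pt → Prop} {v' : ℤ → ℤ → ι → ℝ}

omit [DecidableEq ι] in
/-- the cap of the second place, every square of the shifted grid -/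
theorem capS_MSb {K : ℕ} {M : Pt} {b : FamV ι} {th : ℝ} (hth : 0 ≤ th) {x0 : ℤ}
    (h : ∀ k ≤ K, ∀ n m, CapS th k k (b x0 k) n m) (sh : Pt) {k : ℕ} (hk : k ≤ K) (n m : ℤ) :
    CapS (4 * th) k k (MSb K M b sh x0 k) n m :=
  H747.capS_snd (capS_sft hk hth (h k hk) _ _ _ _ _ _)

/-- **`cap` of `RX_BC`** : `t2 = 4 th²`. -/
theorem cap_RX (h : FDs q n ez F1 F2 F3 K x s r U g u v A b C Q1 Q2 Q3 v') (M sh : Pt) (x0 : ℤ) :
    ∀ k, k ≤ K → ∀ n m,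
      ((4 * q.th s r ^ 2) • (1 : Matrix (Ix k × (ι ⊕ ι)) (Ix k × (ι ⊕ ι)) ℝ)
        - H585.PairR.PB (MSb K M b sh x0) k k n m).PosSemidef :=
  fun _ hk _ _ => py_of_capS (by positivity)
    (capS_MSb (sq_nonneg _) (fun k hk n m => h.capb x0 k hk n m) sh hk _ _)

/-- **`capC` of `RX_BC`** : `cC = cC1 Λ s ε κ`. -/
theorem capC_RX (h : FDs q n ez F1 F2 F3 K x s r U g u v A b C Q1 Q2 Q3 v')
    (hC : H305.Cls K x s r P U g u v) (hΛ : 0 ≤ q.Lm) (hs : 0 ≤ s) (hez : 0 ≤ ez) (hKn : K ≤ n)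
    {Al : ℕ → Pt → Prop} {o : ℤ} {l E κ : ℝ} {R : Slt ι} (hS : SlotN Al o K (cx K x) l u R κ E)
    {Ct : FamV ι} (hCt : ∀ x0 k z x1, Ct x0 k z x1 = (√ez)⁻¹ • C x0 k z x1)
    (sh : Pt) (ε : ℝ) (x0 : ℤ) :
    ∀ k a i m, k ≤ a → a < K →
      (cC1 q.Lm s ε κ • (1 : Matrix (Ix k × (ι ⊕ ι)) (Ix k × (ι ⊕ ι)) ℝ)
        - XH ε (RR R sh x0) (cR K (cx K x) Ct sh x0 k) k a i m).PosSemidef :=
  fun k a i m h1 h2 => capC_P1 h hC hΛ hs hez hKn hS hCt x0 sh ε k a i m (Nat.zero_le k) h1 h2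

/-! ### The affected rows of `b` -/

/-- some point of the cell `h` of scale `k` and some point of the cell `n` of scale `k + 1` meet an
affected row cell of `(0 ; b)` -/
def BoT (K : ℕ) (M : Pt) (b : FamV ι) (sh : Pt) (x0 : ℤ) (k : ℕ) (n h : ℤ) : Prop :=
  ∃ x1 x2 : ℤ, ix k x1 = h ∧ ix (k + 1) x2 = n ∧
    AfC k (MSb K M b sh x0 k) (MSb K M b sh x0 (k + 1)) (ix k x1) x2

omit [Fintype ι] [DecidableEq ι] in
/-- **`hBo` of `RX_BC`** -/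
theorem hBo_T (K : ℕ) (M : Pt) (b : FamV ι) (sh : Pt) (x0 : ℤ) (k : ℕ) (x1 x2 : ℤ)
    (h : AfC k (MSb K M b sh x0 k) (MSb K M b sh x0 (k + 1)) (ix k x1) x2) :
    BoT K M b sh x0 k (ix (k + 1) x2) (ix k x1) := ⟨x1, x2, rfl, rfl, h⟩

omit [Fintype ι] [DecidableEq ι] in
/-- an affected row cell contains a point where `b` changes, original coordinates inside the root -/
theorem AfC_pt {K : ℕ} {M : Pt} {b : FamV ι} {sh : Pt} {x0 : ℤ} {k : ℕ} {h x2 : ℤ}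
    (hA : AfC k (MSb K M b sh x0 k) (MSb K M b sh x0 (k + 1)) h x2) :
    ∃ x1 ∈ iv k h, ix K (x1 + sh.1) = M.1 ∧ ix K (x2 + sh.2.1) = M.2.1 ∧
      b x0 (k + 1) (x1 + sh.1) (x2 + sh.2.1) ≠ b x0 k (x1 + sh.1) (x2 + sh.2.1) := by
  unfold H38.Q.AfC at hA
  push Not at hA
  obtain ⟨x1, h1, h2⟩ := hA
  refine ⟨x1, h1, ?_⟩
  by_contra h3
  push Not at h3
  apply h2
  unfold MSb H747.shB H747.sft
  by_cases h4 : ix K (x1 + sh.1) = M.1 ∧ ix K (x2 + sh.2.1) = M.2.1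
  · rw [if_pos h4, if_pos h4, h3 h4.1 h4.2]
  · rw [if_neg h4, if_neg h4]

/-- **the squares of `BoT`** : an affected square of `b` in original coordinates, inside the
root -/
theorem BoT_q (h : FDs q n ez F1 F2 F3 K x s r U g u v A b C Q1 Q2 Q3 v') {sh : Pt} {x0 : ℤ}
    {k : ℕ} (hk : k < K) {n' h' : ℤ} (hB : BoT K (cx K x) b sh x0 k n' h') :
    ∃ x1 x2 : ℤ, ix k x1 = h' ∧ ix (k + 1) x2 = n' ∧ ix K (x1 + sh.1) = (cx K x).1 ∧
      ix K (x2 + sh.2.1) = (cx K x).2.1 ∧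
      H401.qB q U K Q3 k (ix k x0) (ix k (x1 + sh.1)) (ix k (x2 + sh.2.1)) := by
  obtain ⟨x1, x2, e1, e2, hA⟩ := hB
  obtain ⟨x1', h1, h2, h3, h4⟩ := AfC_pt hA
  rw [e1] at h1
  refine ⟨x1', x2, mem_iv.1 h1, e2, h2, h3, ?_⟩
  by_contra h5
  exact h4 (h.agb x0 k hk _ _ h5 _ (mem_iv.2 rfl) _ (mem_iv.2 rfl))

end

end Vale.Agent.P141.H377.B1
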