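import Vale.Agent.P141.H377.CapQ
import Vale.Agent.P141.H215.CapX
import Vale.Agent.P141.H747.StageM
import Vale.Agent.P141.H677.GenM
import Vale.Agent.P141.H124.LagX

/-!
# P141, line (A), TF, PM, hub `x1`: the operator caps of the stacked slot at class data

Letters of `H747.StageM` and `H677.GenM`: the slot `c k x z = τ • shC K M s (C x0) k z x`, the
matrices `R a x n = RgS R s.2.2 s.1 x0 a n x` of a slot `SlotN`. `hcap_fd` : the hypothesis `hcap`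
of `H377.Q.stkR_QO`, all cells, also outside the root; `hcap_slot` : the same for a `SlotN`;
`hcap_Ra` : the same in the letters `Ra`, `ca` of `H124.LagX`.
-/

namespace Vale.Agent.P141.H377.P1

open Finset Matrix
open Vale.Agent.P075 (Ix val)
open Vale.Agent.P141.PL (Pt iv ix mem_iv cx)
open Vale.Agent.P141.PL.H315 (Tri)
open Vale.Agent.P141.H43 (nsq)
open Vale.Agent.P141.H297.Ch (XH)
open Vale.Agent.P141.H215 (NCap nrm nrm_nonneg capV capV_nonneg)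
open Vale.Agent.P141.H677.Sk (FamA FamV Slt FDs SlotN)
open Vale.Agent.P141.H747 (RgS shC RgS_le)

noncomputable section

open scoped Classical

variable {ι : Type} [Fintype ι]

/-- the averaged slot, as the matrices of the stack of hub `x1` -/
def RaS (R : Slt ι) (sh : Pt) (x0 : ℤ) : ℕ → ℤ → ℤ → Matrix ι ι ℝ :=
  fun a x n => RgS R sh.2.2 sh.1 x0 a n x

/-- the slot on the grid `sh`, order `(x, z)` -/
def caS (τ : ℝ) (K : ℕ) (M sh : Pt) (C : FamV ι) (x0 : ℤ) : ℕ → ℤ → ℤ → ι → ℝ :=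
  fun k x z => τ • shC K M sh (C x0) k z x

/-- a multiple of a family -/
theorem ncap_smul {c τ : ℝ} {X Y : Finset ℤ} {C : ℤ → ℤ → ι → ℝ} (h : NCap c X Y (nrm C)) :
    NCap (τ ^ 2 * c) X Y (nrm fun z x => τ • C z x) := by
  have h1 := h.fam (C' := fun z x => τ • C z x) (t := |τ|) (abs_nonneg τ) fun z _ x _ => by
    rw [smul_dotProduct, dotProduct_smul, smul_eq_mul, smul_eq_mul, sq_abs]
    exact le_of_eq (by ring)
  rwa [sq_abs] at h1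

variable [DecidableEq ι]

/-- **The cap of one rectangle** from the cap of the slot. -/
theorem hcap_of {c τ κ r ν : ℝ} (hc : 0 ≤ c) (hν : 0 ≤ ν) {K k j a : ℕ} {M sh : Pt}
    {C : FamV ι} {R : Slt ι} {x0 n m : ℤ}
    (h : NCap (c * (2 ^ a * 2 ^ k)) (iv a n) (iv k m) (nrm (shC K M sh (C x0) j)))
    (hR : ∀ z x1, ∀ w : ι → ℝ, nsq (R x0 0 z x1 *ᵥ w) ≤ κ ^ 2 * nsq w)
    (hνc : ν * ((r ^ 2 + κ ^ 2) * (τ ^ 2 * c)) ≤ 1) :
    (1 - ν • XH r (RaS R sh x0) (caS τ K M sh C x0 j) k a n m).PosSemidef := by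
  have h1 : NCap (τ ^ 2 * c * (2 ^ a * 2 ^ k)) (iv a n) (iv k m)
      (nrm fun y x => caS τ K M sh C x0 j x y) := by
    have h2 := ncap_smul (τ := τ) h
    rw [mul_assoc]
    exact h2
  have h3 : ∀ z x1, ∀ w : ι → ℝ,
      (R x0 0 z x1 *ᵥ w) ⬝ᵥ (R x0 0 z x1 *ᵥ w) ≤ κ ^ 2 * (w ⬝ᵥ w) := hR
  have h4 : ∀ y ∈ iv a n, ∀ x ∈ iv k m, ∀ w : ι → ℝ,
      (RaS R sh x0 (a + 1) x (ix (a + 1) y) *ᵥ w) ⬝ᵥ (RaS R sh x0 (a + 1) x (ix (a + 1) y) *ᵥ w)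
        ≤ κ ^ 2 * (w ⬝ᵥ w) := fun y _ x _ w =>
    RgS_le h3 sh.2.2 sh.1 (a + 1) (ix (a + 1) y) x w
  exact H215.xh_cap h1 (mul_nonneg (sq_nonneg τ) hc) (sq_nonneg κ) h4 hν hνc

section FD

variable {q : H401.Num} {n : ℕ} {ez : ℝ} {F1 F2 F3 : ℕ → Pt → ℝ} {K : ℕ} {x : Pt} {s r P : ℝ}
  {U : Tri} {g : ℤ → ℤ → ℝ} {u v : ℤ → ℤ → ι → ℝ} {A : FamA} {b C : FamV ι}
  {Q1 Q2 Q3 : ℕ → Pt → Prop} {v' : ℤ → ℤ → ι → ℝ}

/-- **The hypothesis `hcap` of `H377.Q.stkR_QO` at class data.** -/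
theorem hcap_fd (h : FDs q n ez F1 F2 F3 K x s r U g u v A b C Q1 Q2 Q3 v')
    (hC : H305.Cls K x s r P U g u v) (hΛ : 0 ≤ q.Lm) (hs : 0 ≤ s) (hez : 0 ≤ ez) (hKn : K ≤ n)
    {R : Slt ι} {κ : ℝ} (x0 : ℤ)
    (hR : ∀ z x1, ∀ w : ι → ℝ, nsq (R x0 0 z x1 *ᵥ w) ≤ κ ^ 2 * nsq w) (sh : Pt) {τ ε ν : ℝ}
    (hν : 0 ≤ ν) (hνc : ν * ((ε ^ 2 + κ ^ 2) * (τ ^ 2 * (4 * capV q.Lm s ez))) ≤ 1) :
    ∀ k a i m, 0 ≤ k → k ≤ a → a < K →
      (1 - ν • XH ε (RaS R sh x0) (caS τ K (cx K x) sh C x0 k) k a i m).PosSemidef := by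
  intro k a i m _ hka ha
  have hc := capV_nonneg (Λ := q.Lm) (s := s) hez
  exact hcap_of (by positivity) hν
    (H215.fd_shift h hC hΛ hs hez hKn hka le_rfl ha.le (hka.trans ha.le) x0 sh i m) hR hνc

/-- the same for a `SlotN` -/
theorem hcap_slot (h : FDs q n ez F1 F2 F3 K x s r U g u v A b C Q1 Q2 Q3 v')
    (hC : H305.Cls K x s r P U g u v) (hΛ : 0 ≤ q.Lm) (hs : 0 ≤ s) (hez : 0 ≤ ez) (hKn : K ≤ n)
    {Al : ℕ → Pt → Prop} {o : ℤ} {l E κ : ℝ} {R : Slt ι} (hS : SlotN Al o K (cx K x) l u R κ E)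
    (x0 : ℤ) (sh : Pt) {τ ε ν : ℝ} (hν : 0 ≤ ν)
    (hνc : ν * ((ε ^ 2 + κ ^ 2) * (τ ^ 2 * (4 * capV q.Lm s ez))) ≤ 1) :
    ∀ k a i m, 0 ≤ k → k ≤ a → a < K →
      (1 - ν • XH ε (RaS R sh x0) (caS τ K (cx K x) sh C x0 k) k a i m).PosSemidef :=
  hcap_fd h hC hΛ hs hez hKn x0 (fun z x1 w => hS.cap x0 0 (Nat.zero_le K) z x1 w) sh hν hνc

/-- `ca` of a multiple of the family -/
theorem ca_smul (τ : ℝ) (K : ℕ) (M sh : Pt) (C : FamV ι) (x0 : ℤ) :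
    H124.ca K M sh (fun k z x => τ • C x0 k z x) = caS τ K M sh C x0 := by
  funext k x z
  unfold H124.ca caS H747.shC H747.sft
  split_ifs
  · rfl
  · rw [smul_zero]

/-- `ca` of the family -/
theorem ca_one (K : ℕ) (M sh : Pt) (C : FamV ι) (x0 : ℤ) :
    H124.ca K M sh (C x0) = caS 1 K M sh C x0 := by
  funext k x z
  unfold H124.ca caS
  rw [one_smul]

/-- the slot of `H124.LagX` is the mean of the slot -/
theorem Ra_eq {Mx : ℤ → ℕ → ℤ → Matrix ι ι ℝ} {o : ℤ} {R : Slt ι} {sx : ℤ → ℕ → ℤ → ℤ → ℝ}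
    (hR : ∀ x0 j z x1, R x0 j z x1 = H841.Rm (Mx x1) o x1 (sx x1) K j x0 z) (sh : Pt) (x0 : ℤ) :
    H124.Ra Mx o sx K sh x0 = RaS R sh x0 := by
  funext a x n
  unfold H124.Ra H483.Rx H841.Rs RaS RgS H43.avv
  simp only [hR]

/-- **`hcap` in the letters of `H124.LagX`.** -/
theorem hcap_Ra (h : FDs q n ez F1 F2 F3 K x s r U g u v A b C Q1 Q2 Q3 v')
    (hC : H305.Cls K x s r P U g u v) (hΛ : 0 ≤ q.Lm) (hs : 0 ≤ s) (hez : 0 ≤ ez) (hKn : K ≤ n)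
    {Al : ℕ → Pt → Prop} {o : ℤ} {l E κ : ℝ} {R : Slt ι} (hS : SlotN Al o K (cx K x) l u R κ E)
    {Mx : ℤ → ℕ → ℤ → Matrix ι ι ℝ} {o' : ℤ} {sx : ℤ → ℕ → ℤ → ℤ → ℝ}
    (hR : ∀ x0 j z x1, R x0 j z x1 = H841.Rm (Mx x1) o' x1 (sx x1) K j x0 z)
    (x0 : ℤ) (sh : Pt) {τ ε ν : ℝ} (hν : 0 ≤ ν)
    (hνc : ν * ((ε ^ 2 + κ ^ 2) * (τ ^ 2 * (4 * capV q.Lm s ez))) ≤ 1) :
    ∀ k a i m, 0 ≤ k → k ≤ a → a < K →
      (1 - ν • XH ε (H124.Ra Mx o' sx K sh x0)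
        (H124.ca K (cx K x) sh (fun k z x => τ • C x0 k z x) k) k a i m).PosSemidef := by
  rw [Ra_eq hR sh x0, ca_smul τ K (cx K x) sh C x0]
  exact hcap_slot h hC hΛ hs hez hKn hS x0 sh hν hνc

/-- the number of the normalised family -/
theorem capV_norm {Λ : ℝ} (hez : 0 ≤ ez) :
    ((√ez)⁻¹) ^ 2 * (4 * capV Λ s ez) ≤ 16 * √(Λ * s) := by
  unfold H215.capV
  rcases hez.eq_or_lt with h0 | h0
  · rw [← h0, Real.sqrt_zero, _root_.inv_zero]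
    have := Real.sqrt_nonneg (Λ * s)
    nlinarith
  · rw [inv_pow, Real.sq_sqrt h0.le]
    refine le_of_eq ?_
    field_simp
    ring

/-- **`hcap` in the letters of `NumPM1`** : `Ct = C / √ez`, `μ (ε² + κ²) 16 √(Λ s) ≤ 4 ^ J`. -/
theorem hcap_P1 (h : FDs q n ez F1 F2 F3 K x s r U g u v A b C Q1 Q2 Q3 v')
    (hC : H305.Cls K x s r P U g u v) (hΛ : 0 ≤ q.Lm) (hs : 0 ≤ s) (hez : 0 ≤ ez) (hKn : K ≤ n)
    {Al : ℕ → Pt → Prop} {o : ℤ} {l E κ : ℝ} {R : Slt ι} (hS : SlotN Al o K (cx K x) l u R κ E)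
    {Ct : FamV ι} (hCt : ∀ x0 k z x1, Ct x0 k z x1 = (√ez)⁻¹ • C x0 k z x1)
    (x0 : ℤ) (sh : Pt) {ε μ : ℝ} (hμ : 0 ≤ μ) (J : ℕ)
    (hJ : μ * ((ε ^ 2 + κ ^ 2) * (16 * √(q.Lm * s))) ≤ 4 ^ J) :
    ∀ k a i m, 0 ≤ k → k ≤ a → a < K →
      (1 - (μ / 4 ^ J) • XH ε (fun a x1 n => RgS R sh.2.2 sh.1 x0 a n x1)
        (fun x1 z => shC K (cx K x) sh (Ct x0) k z x1) k a i m).PosSemidef := by
  have e : ∀ k, (fun x1 z => shC K (cx K x) sh (Ct x0) k z x1)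
      = caS (√ez)⁻¹ K (cx K x) sh C x0 k := by
    intro k
    have e1 : Ct x0 = fun k z x1 => (√ez)⁻¹ • C x0 k z x1 := by
      funext k z x1
      exact hCt x0 k z x1
    rw [← ca_smul, e1]
    rfl
  intro k a i m h0 h1 h2
  rw [e]
  refine hcap_slot h hC hΛ hs hez hKn hS x0 sh (by positivity) ?_ k a i m h0 h1 h2
  rw [div_mul_eq_mul_div, div_le_one (by positivity)]
  refine le_trans (mul_le_mul_of_nonneg_left (mul_le_mul_of_nonneg_left (capV_norm hez) ?_) hμ) hJ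
  positivity

end FD

end

end Vale.Agent.P141.H377.P1
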