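import Vale.Agent.P141.H377.CapP1

/-!
# P141, line (A), TF, PM, hub `x1`: the operator cap of the stacked slot, number form

`capC_P1` : `(cC • 1 - XH ε (RgS R ..) (shC .. (C / √ez)) k a i m)` is positive semidefinite with
`cC = (ε² + κ²) 16 √(Λ s)`, all cells (hypothesis `capC` of `H585.PairRX`).
-/

namespace Vale.Agent.P141.H377.P1

open Finset Matrix
open Vale.Agent.P075 (Ix val)
open Vale.Agent.P141.PL (Pt iv ix mem_iv cx)
open Vale.Agent.P141.PL.H315 (Tri)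
open Vale.Agent.P141.H43 (nsq av)
open Vale.Agent.P141.H297.Ch (XH Py sl st Py_form Py_symm)
open Vale.Agent.P141.H215 (NCap nrm nrm_nonneg nrm_sq capV capV_nonneg)
open Vale.Agent.P141.H677.Sk (FamA FamV Slt FDs SlotN)
open Vale.Agent.P141.H747 (RgS shC RgS_le)

noncomputable section

open scoped Classical

/-- a quadratic form bound gives the number form of the operator cap -/
theorem psd_num {h : Type*} [Fintype h] [DecidableEq h] {W : ℤ → h → ℝ} {a : ℕ} {n : ℤ}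
    {g : ℝ} (hW : ∀ v : h → ℝ, (av a n fun y => (v ⬝ᵥ W y) ^ 2) ≤ g * (v ⬝ᵥ v)) :
    (g • (1 : Matrix h h ℝ) - Py W a n).PosSemidef := by
  refine PosSemidef.of_dotProduct_mulVec_nonneg ?_ fun v => ?_
  · rw [IsHermitian, conjTranspose_eq_transpose_of_trivial, transpose_sub, transpose_smul,
      transpose_one, Py_symm]
  · have h1 : star v = v := rfl
    have h2 := hW v
    rw [h1, sub_mulVec, smul_mulVec, one_mulVec, dotProduct_sub, dotProduct_smul, Py_form,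
      smul_eq_mul]
    linarith

/-- **Hub x1**: the Gram matrix with the label as an index, number form. -/
theorem py_psd {L : Type*} [Fintype L] [DecidableEq L] {c : ℝ} {a k : ℕ} {n m : ℤ}
    {w : ℤ → ℤ → L → ℝ}
    (h : NCap (c * (2 ^ a * 2 ^ k)) (iv a n) (iv k m) (nrm fun y x => w x y)) (hc : 0 ≤ c) :
    (c • (1 : Matrix (Ix k × L) (Ix k × L) ℝ) - Py (sl k m w) a n).PosSemidef :=
  psd_num fun v => H377.Q.av_of_sum (fun f =>
    h.lab (by positivity : 0 ≤ c * (2 ^ a * 2 ^ k)) (b := fun y x => w x y)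
      (fun x _ y _ => (nrm_sq (fun y x => w x y) x y).ge) (fun _ _ _ _ => nrm_nonneg _ _ _) f) v

section one

variable {ι : Type*} [Fintype ι] [DecidableEq ι]

/-- **The cap of the stack at hub x1, number form.** -/
theorem xh_psd {c : ℝ} {b : ℤ → ℤ → ι → ℝ} {r : ℝ} {R : ℕ → ℤ → ℤ → Matrix ι ι ℝ} {k a : ℕ}
    {n m : ℤ} (h : NCap (c * (2 ^ a * 2 ^ k)) (iv a n) (iv k m) (nrm fun y x => b x y))
    (hc : 0 ≤ c) {q : ℝ} (hq : 0 ≤ q) (hR : ∀ y ∈ iv a n, ∀ x ∈ iv k m, ∀ w : ι → ℝ,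
      (R (a + 1) x (ix (a + 1) y) *ᵥ w) ⬝ᵥ (R (a + 1) x (ix (a + 1) y) *ᵥ w) ≤ q * (w ⬝ᵥ w)) :
    (((r ^ 2 + q) * c) • (1 : Matrix (Ix k × (ι ⊕ ι)) (Ix k × (ι ⊕ ι)) ℝ)
      - XH r R b k a n m).PosSemidef := by
  have h1 := H215.st_ncap (r := r) (j := a + 1) (R := R (a + 1)) h hq hR
  rw [← mul_assoc] at h1
  exact py_psd h1 (by positivity)

end one

variable {ι : Type} [Fintype ι] [DecidableEq ι] {q : H401.Num} {n : ℕ} {ez : ℝ}
  {F1 F2 F3 : ℕ → Pt → ℝ} {K : ℕ} {x : Pt} {s r P : ℝ}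
  {U : Tri} {g : ℤ → ℤ → ℝ} {u v : ℤ → ℤ → ι → ℝ} {A : FamA} {b C : FamV ι}
  {Q1 Q2 Q3 : ℕ → Pt → Prop} {v' : ℤ → ℤ → ι → ℝ}

/-- the number of the cap -/
def cC1 (Λ s ε κ : ℝ) : ℝ := (ε ^ 2 + κ ^ 2) * (16 * √(Λ * s))

theorem cC1_nonneg (Λ s ε κ : ℝ) : 0 ≤ cC1 Λ s ε κ :=
  mul_nonneg (add_nonneg (sq_nonneg _) (sq_nonneg _)) (mul_nonneg (by norm_num)
    (Real.sqrt_nonneg _))

/-- **`capC` of `H585.PairRX` at class data** : every cell, every `x₀`. -/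
theorem capC_P1 (h : FDs q n ez F1 F2 F3 K x s r U g u v A b C Q1 Q2 Q3 v')
    (hC : H305.Cls K x s r P U g u v) (hΛ : 0 ≤ q.Lm) (hs : 0 ≤ s) (hez : 0 ≤ ez) (hKn : K ≤ n)
    {Al : ℕ → Pt → Prop} {o : ℤ} {l E κ : ℝ} {R : Slt ι} (hS : SlotN Al o K (cx K x) l u R κ E)
    {Ct : FamV ι} (hCt : ∀ x0 k z x1, Ct x0 k z x1 = (√ez)⁻¹ • C x0 k z x1)
    (x0 : ℤ) (sh : Pt) (ε : ℝ) :
    ∀ k a i m, 0 ≤ k → k ≤ a → a < K →
      (cC1 q.Lm s ε κ • (1 : Matrix (Ix k × (ι ⊕ ι)) (Ix k × (ι ⊕ ι)) ℝ)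
        - XH ε (fun a x1 n => RgS R sh.2.2 sh.1 x0 a n x1)
          (fun x1 z => shC K (cx K x) sh (Ct x0) k z x1) k a i m).PosSemidef := by
  have e : ∀ k, (fun x1 z => shC K (cx K x) sh (Ct x0) k z x1)
      = caS (√ez)⁻¹ K (cx K x) sh C x0 k := by
    intro k
    have e1 : Ct x0 = fun k z x1 => (√ez)⁻¹ • C x0 k z x1 := by
      funext k z x1
      exact hCt x0 k z x1
    rw [← ca_smul, e1]
    rfl
  intro k a i m _ hka ha
  rw [e]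
  have hc := capV_nonneg (Λ := q.Lm) (s := s) hez
  have h0 := H215.fd_shift h hC hΛ hs hez hKn hka le_rfl ha.le (hka.trans ha.le) x0 sh i m
  have h1 : NCap ((√ez)⁻¹ ^ 2 * (4 * capV q.Lm s ez) * (2 ^ a * 2 ^ k)) (iv a i) (iv k m)
      (nrm fun y x1 => caS (√ez)⁻¹ K (cx K x) sh C x0 k x1 y) := by
    have h2 := ncap_smul (τ := (√ez)⁻¹) h0
    rw [mul_assoc]
    exact h2
  have h2 : NCap (16 * √(q.Lm * s) * (2 ^ a * 2 ^ k)) (iv a i) (iv k m)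
      (nrm fun y x1 => caS (√ez)⁻¹ K (cx K x) sh C x0 k x1 y) :=
    h1.mono (mul_le_mul_of_nonneg_right (capV_norm hez) (by positivity))
  have h3 : ∀ z x1, ∀ w : ι → ℝ,
      (R x0 0 z x1 *ᵥ w) ⬝ᵥ (R x0 0 z x1 *ᵥ w) ≤ κ ^ 2 * (w ⬝ᵥ w) :=
    fun z x1 w => hS.cap x0 0 (Nat.zero_le K) z x1 w
  exact xh_psd h2 (by positivity) (sq_nonneg κ) fun y _ x1 _ w =>
    RgS_le h3 sh.2.2 sh.1 (a + 1) (ix (a + 1) y) x1 w

end

end Vale.Agent.P141.H377.P1
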