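import Vale.Agent.P141.H38.StkQ
import Vale.Agent.P141.H336.TVr
import Vale.Agent.P141.PL.H804.Glue

/-!
# P141, line (A), TF, hub `x1`: the stack energy for path slots with an operator cap

`stk_QO`, `stkR_QO` : the instances `H336.Stk`, `H336.StkR` of the stack family of hub `x1` for an
arbitrary path of slots; the only cap is the operator cap
`(1 - (μ / 4 ^ J) • XH r R (c k) k a n m).PosSemidef`.
`hcap_of_sq` : this cap from the caps of the unstacked slots on the squares (scale `k` both ways)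
and a crude operator bound of the transposed row matrices.
-/

namespace Vale.Agent.P141.H377.Q

open Finset Matrix Vale.Agent.P075 Vale.Agent.P141.PL Vale.Agent.P141.PL.H103 Vale.Agent.P141.H103
open Vale.Agent.P141.PL.H588 Vale.Agent.P141.H585.PairCh Vale.Agent.P141.H505
open Vale.Agent.P141.H297.Ch Vale.Agent.P141.H38.Q
open Vale.Agent.P141.H43 (av av_half av_mono av_nonneg av_add av_sub av_mul)

noncomputable section

open scoped Classical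

/-! ### The cap -/

section cap

/-- a sum of two vectors -/
theorem comb_sq {ι : Type*} [Fintype ι] {r q V : ℝ} (hq : 0 ≤ q) (hV : 0 ≤ V) {u w : ι → ℝ}
    (h : ∑ i, w i ^ 2 ≤ q * V) :
    ∑ i, (r * u i + w i) ^ 2 ≤ (r ^ 2 + q) * (∑ i, u i ^ 2 + V) := by
  rcases hq.eq_or_lt with h0 | h0
  · have h1 : ∀ i, w i = 0 := by
      rw [← h0, zero_mul] at h
      have h2 := (sum_eq_zero_iff_of_nonneg (fun i _ => sq_nonneg (w i))).1
        (le_antisymm h (sum_nonneg fun i _ => sq_nonneg _))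
      intro i
      exact (pow_eq_zero_iff (two_ne_zero)).1 (h2 i (mem_univ i))
    simp only [h1, add_zero, mul_pow]
    rw [← mul_sum, ← h0, add_zero]
    nlinarith [sq_nonneg r, mul_nonneg (sq_nonneg r) hV]
  · have h1 : ∀ i, (r * u i + w i) ^ 2
        ≤ (r ^ 2 + q) * u i ^ 2 + (1 + r ^ 2 / q) * w i ^ 2 := by
      intro i
      have e : (r ^ 2 + q) * u i ^ 2 + (1 + r ^ 2 / q) * w i ^ 2 - (r * u i + w i) ^ 2
          = (q * u i - r * w i) ^ 2 / q := by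
        field_simp
        ring
      have h2 : 0 ≤ (q * u i - r * w i) ^ 2 / q := by positivity
      linarith
    calc ∑ i, (r * u i + w i) ^ 2
        ≤ ∑ i, ((r ^ 2 + q) * u i ^ 2 + (1 + r ^ 2 / q) * w i ^ 2) :=
          sum_le_sum fun i _ => h1 i
      _ = (r ^ 2 + q) * ∑ i, u i ^ 2 + (1 + r ^ 2 / q) * ∑ i, w i ^ 2 := by
          rw [sum_add_distrib, mul_sum, mul_sum]
      _ ≤ (r ^ 2 + q) * ∑ i, u i ^ 2 + (1 + r ^ 2 / q) * (q * V) := by gcongr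
      _ = (r ^ 2 + q) * (∑ i, u i ^ 2 + V) := by
          field_simp
          ring

/-- a quadratic form bound gives the operator cap -/
theorem psd_of_av {h : Type*} [Fintype h] [DecidableEq h] {W : ℤ → h → ℝ} {a : ℕ} {n : ℤ}
    {g ν : ℝ} (hν : 0 ≤ ν) (hνg : ν * g ≤ 1)
    (hW : ∀ v : h → ℝ, (av a n fun y => (v ⬝ᵥ W y) ^ 2) ≤ g * (v ⬝ᵥ v)) :
    (1 - ν • Py W a n).PosSemidef := by
  refine PosSemidef.of_dotProduct_mulVec_nonneg ?_ fun v => ?_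
  · rw [IsHermitian, conjTranspose_eq_transpose_of_trivial, transpose_sub, transpose_one,
      transpose_smul, Py_symm]
  · have h1 : star v = v := rfl
    rw [h1, sub_mulVec, one_mulVec, smul_mulVec, dotProduct_sub, dotProduct_smul, Py_form,
      smul_eq_mul]
    have h2 := mul_le_mul_of_nonneg_left (hW v) hν
    have h3 : 0 ≤ v ⬝ᵥ v := by
      unfold dotProduct
      exact sum_nonneg fun i _ => mul_self_nonneg _
    nlinarith [mul_le_mul_of_nonneg_right hνg h3]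

/-- the operator cap gives the quadratic form bound -/
theorem av_of_psd {h : Type*} [Fintype h] [DecidableEq h] {W : ℤ → h → ℝ} {a : ℕ} {n : ℤ}
    {g : ℝ} (hW : (g • (1 : Matrix h h ℝ) - Py W a n).PosSemidef) (v : h → ℝ) :
    (av a n fun y => (v ⬝ᵥ W y) ^ 2) ≤ g * (v ⬝ᵥ v) := by
  have h1 := hW.dotProduct_mulVec_nonneg v
  have h2 : star v = v := rfl
  rw [h2, sub_mulVec, smul_mulVec, one_mulVec, dotProduct_sub, dotProduct_smul, Py_form,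
    smul_eq_mul] at h1
  linarith

/-- a bound on all cells of scale `k` holds on all cells of the scales `a ≥ k` -/
theorem av_up {k : ℕ} {f : ℤ → ℝ} {B : ℝ} (h : ∀ n, av k n f ≤ B) (l : ℕ) (n : ℤ) :
    av (k + l) n f ≤ B := by
  induction l generalizing n with
  | zero => exact h n
  | succ l ih =>
    have h1 := ih (2 * n)
    have h2 := ih (2 * n + 1)
    show av (k + l + 1) n f ≤ B
    rw [av_half]
    linarith

variable {ι : Type*} [Fintype ι]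

/-- the stacked slot against a vector is the slot against the combined vector -/
theorem dot_st {k a : ℕ} {n m y : ℤ} (r : ℝ) (R : ℤ → ℤ → Matrix ι ι ℝ) (c : ℤ → ℤ → ι → ℝ)
    (hy : ix a y = n) (ψ : Ix k × (ι ⊕ ι) → ℝ) :
    ψ ⬝ᵥ sl k m (st r a R c) y
      = (fun p : Ix k × ι => r * ψ (p.1, Sum.inl p.2)
          + ((R (2 ^ k * m + (val k p.1 : ℤ)) n)ᵀ *ᵥ fun i => ψ (p.1, Sum.inr i)) p.2)
        ⬝ᵥ sl k m c y := by
  unfold dotProduct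
  rw [Fintype.sum_prod_type, Fintype.sum_prod_type]
  refine sum_congr rfl fun j _ => ?_
  rw [Fintype.sum_sum_type]
  set x := 2 ^ k * m + (val k j : ℤ) with hx
  have e1 : ∀ i, sl k m (st r a R c) y (j, Sum.inl i) = √((2 : ℝ) ^ k)⁻¹ * (r * c x y i) :=
    fun i => rfl
  have e2 : ∀ i, sl k m (st r a R c) y (j, Sum.inr i)
      = √((2 : ℝ) ^ k)⁻¹ * (R x n *ᵥ c x y) i := by
    intro i
    show √((2 : ℝ) ^ k)⁻¹ * (R x (ix a y) *ᵥ c x y) i = _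
    rw [hy]
  have e3 : ∀ i, sl k m c y (j, i) = √((2 : ℝ) ^ k)⁻¹ * c x y i := fun i => rfl
  simp only [e1, e2, e3]
  have e4 : ∑ i, ψ (j, Sum.inr i) * (√((2 : ℝ) ^ k)⁻¹ * (R x n *ᵥ c x y) i)
      = √((2 : ℝ) ^ k)⁻¹ * ((fun i => ψ (j, Sum.inr i)) ⬝ᵥ (R x n *ᵥ c x y)) := by
    unfold dotProduct
    rw [mul_sum]
    exact sum_congr rfl fun i _ => by ring
  rw [e4, dotProduct_mulVec, ← mulVec_transpose]
  unfold dotProduct
  rw [mul_sum, ← sum_add_distrib]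
  exact sum_congr rfl fun i _ => by ring

/-- **the cap of the stack**, one cell -/
theorem XH_cap {k a : ℕ} {n ν m : ℤ} (hn : ∀ y ∈ iv a n, ix (a + 1) y = ν) {r q g : ℝ}
    (hq : 0 ≤ q) (hg : 0 ≤ g) {R : ℕ → ℤ → ℤ → Matrix ι ι ℝ} {c : ℤ → ℤ → ι → ℝ}
    (hR : ∀ x ∈ iv k m, ∀ w : ι → ℝ, ∑ i, ((R (a + 1) x ν)ᵀ *ᵥ w) i ^ 2 ≤ q * ∑ i, w i ^ 2)
    (hc : ∀ φ : Ix k × ι → ℝ, (av a n fun y => (φ ⬝ᵥ sl k m c y) ^ 2) ≤ g * (φ ⬝ᵥ φ))
    (ψ : Ix k × (ι ⊕ ι) → ℝ) :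
    (av a n fun y => (ψ ⬝ᵥ sl k m (st r (a + 1) (R (a + 1)) c) y) ^ 2)
      ≤ (r ^ 2 + q) * g * (ψ ⬝ᵥ ψ) := by
  set φ : Ix k × ι → ℝ := fun p => r * ψ (p.1, Sum.inl p.2)
    + ((R (a + 1) (2 ^ k * m + (val k p.1 : ℤ)) ν)ᵀ *ᵥ fun i => ψ (p.1, Sum.inr i)) p.2 with hφ
  have h1 : (av a n fun y => (ψ ⬝ᵥ sl k m (st r (a + 1) (R (a + 1)) c) y) ^ 2)
      = av a n fun y => (φ ⬝ᵥ sl k m c y) ^ 2 :=
    av_congr fun y hy => by rw [dot_st r (R (a + 1)) c (hn y hy) ψ]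
  have h2 : φ ⬝ᵥ φ ≤ (r ^ 2 + q) * (ψ ⬝ᵥ ψ) := by
    unfold dotProduct
    rw [Fintype.sum_prod_type, Fintype.sum_prod_type, mul_sum]
    refine sum_le_sum fun j _ => ?_
    rw [Fintype.sum_sum_type]
    have h3 := comb_sq (r := r) (q := q) (V := ∑ i, ψ (j, Sum.inr i) ^ 2) hq
      (sum_nonneg fun i _ => sq_nonneg _) (u := fun i => ψ (j, Sum.inl i))
      (w := fun i => ((R (a + 1) (2 ^ k * m + (val k j : ℤ)) ν)ᵀ *ᵥ fun i => ψ (j, Sum.inr i)) i)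
      (hR _ (val_mem k m j) _)
    simpa only [hφ, pow_two] using h3
  rw [h1]
  refine (hc φ).trans ?_
  nlinarith [mul_le_mul_of_nonneg_left h2 hg]

/-- the parent cell -/
theorem ix_par (a : ℕ) (n : ℤ) : ∃ ν, ∀ y ∈ iv a n, ix (a + 1) y = ν := by
  rcases Int.even_or_odd' n with ⟨ν, h | h⟩
  · refine ⟨ν, fun y hy => ix_half (i := 0) (Or.inl rfl) ?_⟩
    rw [add_zero, ← h]
    exact hy
  · refine ⟨ν, fun y hy => ix_half (i := 1) (Or.inr rfl) ?_⟩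
    rw [← h]
    exact hy

variable [DecidableEq ι]

/-- **The operator cap of the stack** from the caps of the slots on the squares. -/
theorem hcap_of_sq {k₀ N : ℕ} {ν r q g : ℝ} (hν : 0 ≤ ν) (hq : 0 ≤ q) (hg : 0 ≤ g)
    {R : ℕ → ℤ → ℤ → Matrix ι ι ℝ} {c : ℕ → ℤ → ℤ → ι → ℝ}
    (hR : ∀ a x n, k₀ ≤ a → a < N → ∀ w : ι → ℝ,
      ∑ i, ((R (a + 1) x n)ᵀ *ᵥ w) i ^ 2 ≤ q * ∑ i, w i ^ 2)
    (hc : ∀ k n m, k₀ ≤ k → k < N → ∀ φ : Ix k × ι → ℝ,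
      (av k n fun y => (φ ⬝ᵥ sl k m (c k) y) ^ 2) ≤ g * (φ ⬝ᵥ φ))
    (hνg : ν * ((r ^ 2 + q) * g) ≤ 1) :
    ∀ k a n m, k₀ ≤ k → k ≤ a → a < N → (1 - ν • XH r R (c k) k a n m).PosSemidef := by
  intro k a n m h1 h2 h3
  obtain ⟨n', hn'⟩ := ix_par a n
  refine psd_of_av hν hνg (XH_cap hn' hq hg (fun x _ w => hR a x n' (h1.trans h2) h3 w)
    fun φ => ?_)
  obtain ⟨l, rfl⟩ := Nat.exists_eq_add_of_le h2
  exact av_up (fun n => hc k n m h1 (by omega) φ) l n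

omit [DecidableEq ι] in
/-- the cap of a slot in plain sums (215's `NCap.lab`) -/
theorem av_of_sum {a k : ℕ} {n m : ℤ} {g : ℝ} {c : ℤ → ℤ → ι → ℝ}
    (h : ∀ ψ : ℤ → ι → ℝ, ∑ y ∈ iv a n, (∑ x ∈ iv k m, ψ x ⬝ᵥ c x y) ^ 2
      ≤ g * (2 ^ a * 2 ^ k) * ∑ x ∈ iv k m, ψ x ⬝ᵥ ψ x) (φ : Ix k × ι → ℝ) :
    (av a n fun y => (φ ⬝ᵥ sl k m c y) ^ 2) ≤ g * (φ ⬝ᵥ φ) := by
  have hinj : Function.Injective (fun i : Ix k => (2 ^ k * m + val k i : ℤ)) := by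
    intro i j h
    simp only [add_right_inj] at h
    exact Vale.Agent.P141.PL.H804.val_inj k (by exact_mod_cast h)
  set ψ : ℤ → ι → ℝ := Function.extend (fun i : Ix k => (2 ^ k * m + val k i : ℤ))
    (fun j i => φ (j, i)) 0 with hψ
  have e0 : ∀ j : Ix k, ψ (2 ^ k * m + val k j) = fun i => φ (j, i) := fun j =>
    hinj.extend_apply _ _ _
  have e1 : ∀ y, φ ⬝ᵥ sl k m c y = √((2 : ℝ) ^ k)⁻¹ * ∑ x ∈ iv k m, ψ x ⬝ᵥ c x y := by
    intro y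
    rw [H588.sum_iv, mul_sum]
    unfold dotProduct
    rw [Fintype.sum_prod_type]
    refine sum_congr rfl fun j _ => ?_
    rw [e0, mul_sum]
    refine sum_congr rfl fun i _ => ?_
    unfold sl
    ring
  have e2 : φ ⬝ᵥ φ = ∑ x ∈ iv k m, ψ x ⬝ᵥ ψ x := by
    rw [H588.sum_iv]
    unfold dotProduct
    rw [Fintype.sum_prod_type]
    exact sum_congr rfl fun j _ => by rw [e0]
  have e3 : ∀ y, (φ ⬝ᵥ sl k m c y) ^ 2 = ((2 : ℝ) ^ k)⁻¹ * (∑ x ∈ iv k m, ψ x ⬝ᵥ c x y) ^ 2 := by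
    intro y
    rw [e1, mul_pow, pow_two (√((2 : ℝ) ^ k)⁻¹), sqrt_mul_self']
  simp only [e3]
  rw [av_mul, e2]
  unfold Vale.Agent.P141.H43.av
  have p1 : (0 : ℝ) < 2 ^ a := by positivity
  have p2 : (0 : ℝ) < 2 ^ k := by positivity
  have h1 := mul_le_mul_of_nonneg_left (h ψ) (inv_pos.2 (mul_pos p1 p2)).le
  have h2 : (2 ^ a * 2 ^ k : ℝ)⁻¹ * (g * (2 ^ a * 2 ^ k) * ∑ x ∈ iv k m, ψ x ⬝ᵥ ψ x)
      = g * ∑ x ∈ iv k m, ψ x ⬝ᵥ ψ x := by
    field_simp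
  rw [h2, mul_inv] at h1
  linarith

end cap

section inst

variable {ι : Type*} [Fintype ι] [DecidableEq ι]

/-- **The stack family of hub x1, path slot, is a `Stk`**, operator cap. -/
theorem stk_QO {k₀ N : ℕ} (hkN : k₀ ≤ N) {Rt S : ℤ} {μ : ℝ} (hμ : 0 < μ) (J : ℕ) {r : ℝ}
    (hr : r ≠ 0) {R D : ℕ → ℤ → ℤ → Matrix ι ι ℝ} {c : ℕ → ℤ → ℤ → ι → ℝ}
    (hM : ∀ a, k₀ ≤ a → a < N → Mvo (R a) (R (a + 1)) (D (a + 1)))
    (hcap : ∀ k a n m, k₀ ≤ k → k ≤ a → a < N →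
      (1 - (μ / 4 ^ J) • XH r R (c k) k a n m).PosSemidef)
    {H Qo Qm : ℝ}
    (hH : ∀ k a, k₀ ≤ k → k ≤ a → a ≤ N →
      ∑ x ∈ iv N S, ∑ y ∈ iv N Rt, es r (R a) a (c k) x y ≤ H)
    (hQo : ∀ l, ∑ k ∈ Ico k₀ (N - l), ∑ x ∈ iv N S, ∑ y ∈ iv N Rt,
      em r (R (k + l + 1)) (D (k + l + 1)) (k + l + 1) (c k) x y ≤ Qo)
    (hQm : ∀ l, ∑ k ∈ Ico k₀ (N - l), ∑ x ∈ iv N S, ∑ y ∈ iv N Rt,
      es r (R (k + 1 + l)) (k + 1 + l) (bP k (c k) (c (k + 1))) x y ≤ Qm) :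
    H336.Stk k₀ N Rt S μ J (fun k => WO r R (c k) k)
      (fun k a n m => XH r R (c k) k a (2 * n) m)
      (fun k a n m => XH r R (c k) k a (2 * n + 1) m)
      (fun k a n m => Nm r D k a n m) (fun k a n m => -Nm r D k a n m)
      (qO J r R D c) (pQ J r R c)
      (fun k a n m => (1 / 2) * SCr k μ J (WO r R (c (k + 1)) (k + 1) a n m))
      H (258 * ((J : ℝ) + 1) ^ 3 * Qo) (((J : ℝ) + 1) * Qm) where
  hkN := hkN
  hμ := hμ
  psd k a n m := WO_psd _ _ _ _ _ _ _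
  psd0 k a n m := XO_psd _ _ _ _ _ _ _
  psd1 k a n m := XO_psd _ _ _ _ _ _ _
  nγ k a n m := mul_nonneg (by norm_num) (SCr_nonneg hμ J k (WO_psd _ _ _ _ _ _ _))
  par k a n m _ _ _ := WO_par _ _ _ _ _ _ _
  ch0 k a n m h1 h2 h3 := WO_left hr (hM a (h1.trans h2) h3) (c k)
  ch1 k a n m h1 h2 h3 := WO_right hr (hM a (h1.trans h2) h3) (c k)
  out k a n m h1 h2 h3 := by
    have h := SG_outer (XO_psd r R (c k) k a (2 * n) m) (XO_psd r R (c k) k a (2 * n + 1) m)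
      hμ J (hcap k a (2 * n) m h1 h2 h3) (hcap k a (2 * n + 1) m h1 h2 h3)
      (Nm r D k a n m)
    rw [WO_left hr (hM a (h1.trans h2) h3) (c k), WO_right hr (hM a (h1.trans h2) h3) (c k),
      WO_par]
    have e : ∀ X : Matrix (Ix k × (ι ⊕ ι)) (Ix k × (ι ⊕ ι)) ℝ,
        mv (-Nm r D k a n m) X = (1 - Nm r D k a n m) * X * (1 - Nm r D k a n m)ᵀ := by
      intro X
      rw [mv, ← sub_eq_add_neg]
    rw [e, mv]
    have h6 := Nm_pair hr R D (c k) k a n m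
    have p1 := tr_nonneg' (XO_psd r R (c k) k a (2 * n) m) (Nm r D k a n m)
    have p2 := tr_nonneg' (XO_psd r R (c k) k a (2 * n + 1) m) (Nm r D k a n m)
    have p3 := tr_nonneg'' (XO_psd r R (c k) k a (2 * n) m) (Nm r D k a n m)
    have p4 := tr_nonneg'' (XO_psd r R (c k) k a (2 * n + 1) m) (Nm r D k a n m)
    have hJ : (0 : ℝ) ≤ ((J : ℝ) + 1) ^ 3 := by positivity
    have p5 : 0 ≤ av (a + 1) n fun y => av k m fun x =>
        em r (R (a + 1)) (D (a + 1)) (a + 1) (c k) x y :=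
      av_nonneg fun y _ => av_nonneg fun x _ => em_nonneg _ _ _ _ _ _ _
    have h7 : ((Nm r D k a n m)ᵀ * XH r R (c k) k a (2 * n) m * Nm r D k a n m).trace
        + (Nm r D k a n m * XH r R (c k) k a (2 * n + 1) m * (Nm r D k a n m)ᵀ).trace
        ≤ 2 * av (a + 1) n fun y => av k m fun x =>
          em r (R (a + 1)) (D (a + 1)) (a + 1) (c k) x y := by linarith
    have h8 := mul_le_mul_of_nonneg_left h7 (show (0 : ℝ) ≤ 128 * ((J : ℝ) + 1) ^ 3 by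
      positivity)
    unfold qO
    nlinarith
  lip k a n m h1 h2 h3 := by
    have h6 := Nm_pair hr R D (c k) k a n m
    have p3 := tr_nonneg'' (XO_psd r R (c k) k a (2 * n) m) (Nm r D k a n m)
    have p4 := tr_nonneg'' (XO_psd r R (c k) k a (2 * n + 1) m) (Nm r D k a n m)
    have p5 : 0 ≤ av (a + 1) n fun y => av k m fun x =>
        em r (R (a + 1)) (D (a + 1)) (a + 1) (c k) x y :=
      av_nonneg fun y _ => av_nonneg fun x _ => em_nonneg _ _ _ _ _ _ _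
    have hJ : (1 : ℝ) ≤ ((J : ℝ) + 1) ^ 3 := one_le_pow₀ (by linarith [Nat.cast_nonneg (α := ℝ) J])
    rw [transpose_neg, Matrix.neg_mul, Matrix.neg_mul, Matrix.mul_neg, neg_neg]
    unfold qO
    nlinarith
  mid k a n m h1 h2 h3 := SG_mid_Q (c k) (c (k + 1)) r (R a) hμ J a n m
  hH k a h1 h2 h3 := by
    have e : ∀ n m : ℤ, (WO r R (c k) k a n m).trace
        = av a n fun y => av k m fun x => es r (R a) a (c k) x y := fun n m => tr_es _ _ _ _ _ _ _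
    simp only [e]
    rw [bs_av (h2.trans h3) h3]
    exact hH k a h1 h2 h3
  hQo l := by
    have h1 : ∀ k ∈ Ico k₀ (N - l), (2 : ℝ) ^ (k + l + 1) * 2 ^ k * ∑ m ∈ iv (N - k) S,
        ∑ n ∈ iv (N - (k + l + 1)) Rt, qO J r R D c k (k + l) n m
        = 258 * ((J : ℝ) + 1) ^ 3 * ∑ x ∈ iv N S, ∑ y ∈ iv N Rt,
          em r (R (k + l + 1)) (D (k + l + 1)) (k + l + 1) (c k) x y := by
      intro k hk
      rw [mem_Ico] at hk
      unfold qO
      rw [← bs_av (show k ≤ N by omega) (show k + l + 1 ≤ N by omega)]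
      simp only [← mul_sum]
      ring
    rw [sum_congr rfl h1, ← mul_sum]
    exact mul_le_mul_of_nonneg_left (hQo l) (by positivity)
  hQm l := by
    have h1 : ∀ k ∈ Ico k₀ (N - l), (2 : ℝ) ^ (k + 1 + l) * 2 ^ (k + 1)
        * ∑ m ∈ iv (N - (k + 1)) S, ∑ n ∈ iv (N - (k + 1 + l)) Rt, pQ J r R c k (k + 1 + l) n m
        = ((J : ℝ) + 1) * ∑ x ∈ iv N S, ∑ y ∈ iv N Rt,
          es r (R (k + 1 + l)) (k + 1 + l) (bP k (c k) (c (k + 1))) x y := by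
      intro k hk
      rw [mem_Ico] at hk
      unfold pQ
      rw [← bs_av (show k + 1 ≤ N by omega) (show k + 1 + l ≤ N by omega)]
      simp only [← mul_sum]
      ring
    rw [sum_congr rfl h1, ← mul_sum]
    exact mul_le_mul_of_nonneg_left (hQm l) (by positivity)

omit [DecidableEq ι] in
/-- the charge of the middle step is nonnegative -/
theorem pQ_nonneg (J : ℕ) (r : ℝ) (R : ℕ → ℤ → ℤ → Matrix ι ι ℝ) (c : ℕ → ℤ → ℤ → ι → ℝ)
    (k a : ℕ) (n m : ℤ) : 0 ≤ pQ J r R c k a n m :=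
  mul_nonneg (by positivity) (av_nonneg fun _ _ => av_nonneg fun _ _ => es_nonneg _ _ _ _ _ _)

/-- energy of the stack of hub `x1` over the root, matrix of scale `a`, slot `c` -/
def enO (N : ℕ) (S Rt : ℤ) (r : ℝ) (R : ℕ → ℤ → ℤ → Matrix ι ι ℝ) (a : ℕ)
    (c : ℤ → ℤ → ι → ℝ) : ℝ := ∑ x ∈ iv N S, ∑ y ∈ iv N Rt, es r (R a) a c x y

omit [DecidableEq ι] in
theorem enO_nonneg (N : ℕ) (S Rt : ℤ) (r : ℝ) (R : ℕ → ℤ → ℤ → Matrix ι ι ℝ) (a : ℕ)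
    (c : ℤ → ℤ → ι → ℝ) : 0 ≤ enO N S Rt r R a c :=
  sum_nonneg fun _ _ => sum_nonneg fun _ _ => es_nonneg _ _ _ _ _ _

omit [DecidableEq ι] in
theorem WO_bsum {N k a : ℕ} (hk : k ≤ N) (ha : a ≤ N) (Rt S : ℤ) (r : ℝ)
    (R : ℕ → ℤ → ℤ → Matrix ι ι ℝ) (c : ℤ → ℤ → ι → ℝ) :
    (2 : ℝ) ^ a * 2 ^ k * ∑ m ∈ iv (N - k) S, ∑ n ∈ iv (N - a) Rt, (WO r R c k a n m).trace
      = enO N S Rt r R a c := by
  have e : ∀ n m : ℤ, (WO r R c k a n m).trace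
      = av a n fun y => av k m fun x => es r (R a) a c x y := fun n m => tr_es _ _ _ _ _ _ _
  simp only [e]
  exact bs_av hk ha Rt S fun x y => es r (R a) a c x y

/-- **Hub x1, path slot, linear form** (336's structure), operator cap. -/
theorem stkR_QO {k₀ N : ℕ} (hkN : k₀ ≤ N) {Rt S : ℤ} {μ : ℝ} (hμ : 0 < μ) (J : ℕ) {r : ℝ}
    (hr : r ≠ 0) {R D : ℕ → ℤ → ℤ → Matrix ι ι ℝ} {c : ℕ → ℤ → ℤ → ι → ℝ}
    (hM : ∀ a, k₀ ≤ a → a < N → Mvo (R a) (R (a + 1)) (D (a + 1)))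
    (hcap : ∀ k a n m, k₀ ≤ k → k ≤ a → a < N →
      (1 - (μ / 4 ^ J) • XH r R (c k) k a n m).PosSemidef)
    {H Qo Qm : ℕ → ℝ} (nH : ∀ l, 0 ≤ H l) (nQo : ∀ l, 0 ≤ Qo l) (nQm : ∀ l, 0 ≤ Qm l)
    (hH : ∀ l, k₀ + l ≤ N → enO N S Rt r R (k₀ + l) (c k₀) ≤ H l)
    (hQo : ∀ l, ∑ k ∈ Ico k₀ (N - l), ∑ x ∈ iv N S, ∑ y ∈ iv N Rt,
      em r (R (k + l + 1)) (D (k + l + 1)) (k + l + 1) (c k) x y ≤ Qo l)
    (hQm : ∀ l, ∑ k ∈ Ico k₀ (N - l), ∑ x ∈ iv N S, ∑ y ∈ iv N Rt,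
      es r (R (k + 1 + l)) (k + 1 + l) (bP k (c k) (c (k + 1))) x y ≤ Qm l) :
    H336.StkR k₀ N Rt S μ J (fun k => WO r R (c k) k)
      (fun k a n m => XH r R (c k) k a (2 * n) m)
      (fun k a n m => XH r R (c k) k a (2 * n + 1) m)
      (fun k a n m => Nm r D k a n m) (fun k a n m => -Nm r D k a n m)
      (qO J r R D c) (pQ J r R c)
      (fun k a n m => (1 / 2) * SCr k μ J (WO r R (c (k + 1)) (k + 1) a n m))
      H (fun l => 258 * ((J : ℝ) + 1) ^ 3 * Qo l) (fun l => ((J : ℝ) + 1) * Qm l) := by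
  have up : ∀ (f : ℕ → ℝ) (l : ℕ), (∀ l, 0 ≤ f l) → l ≤ N → f l ≤ ∑ l ∈ range (N + 1), f l :=
    fun f l h0 hl => single_le_sum (fun i _ => h0 i) (mem_range.2 (by omega))
  have up0 : ∀ (f : ℕ → ℝ), (∀ l, 0 ≤ f l) → 0 ≤ ∑ l ∈ range (N + 1), f l :=
    fun f h0 => sum_nonneg fun i _ => h0 i
  have g := stk_QO hkN (Rt := Rt) (S := S) hμ J hr hM hcap
    (H := ∑ k ∈ range (N + 1), ∑ a ∈ range (N + 1), enO N S Rt r R a (c k))
    (Qo := ∑ l ∈ range (N + 1), Qo l) (Qm := ∑ l ∈ range (N + 1), Qm l)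
    (fun k a _ h2 h3 => (up (fun a => enO N S Rt r R a (c k)) a
      (fun a => enO_nonneg _ _ _ _ _ _ _) h3).trans
      (up (fun k => ∑ a ∈ range (N + 1), enO N S Rt r R a (c k)) k
        (fun k => sum_nonneg fun a _ => enO_nonneg _ _ _ _ _ _ _) (h2.trans h3)))
    (fun l => by
      by_cases hl : l ≤ N
      · exact (hQo l).trans (up Qo l nQo hl)
      · rw [Ico_eq_empty (by omega), sum_empty]
        exact up0 Qo nQo)
    (fun l => by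
      by_cases hl : l ≤ N
      · exact (hQm l).trans (up Qm l nQm hl)
      · rw [Ico_eq_empty (by omega), sum_empty]
        exact up0 Qm nQm)
  refine H336.Stk.refine g (fun k a n m => pQ_nonneg J r R c k a n m) nH
    (fun l => mul_nonneg (by positivity) (nQo l)) (fun l => mul_nonneg (by positivity) (nQm l))
    (fun l hl => ?_) (fun l => ?_) (fun l => ?_)
  · rw [WO_bsum hkN hl]
    exact hH l hl
  · have h1 : ∀ k ∈ Ico k₀ (N - l), (2 : ℝ) ^ (k + l + 1) * 2 ^ k * ∑ m ∈ iv (N - k) S,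
        ∑ n ∈ iv (N - (k + l + 1)) Rt, qO J r R D c k (k + l) n m
        = 258 * ((J : ℝ) + 1) ^ 3 * ∑ x ∈ iv N S, ∑ y ∈ iv N Rt,
          em r (R (k + l + 1)) (D (k + l + 1)) (k + l + 1) (c k) x y := by
      intro k hk
      rw [mem_Ico] at hk
      unfold qO
      rw [← bs_av (show k ≤ N by omega) (show k + l + 1 ≤ N by omega)]
      simp only [← mul_sum]
      ring
    rw [sum_congr rfl h1, ← mul_sum]
    exact mul_le_mul_of_nonneg_left (hQo l) (by positivity)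
  · have h1 : ∀ k ∈ Ico k₀ (N - l), (2 : ℝ) ^ (k + 1 + l) * 2 ^ (k + 1)
        * ∑ m ∈ iv (N - (k + 1)) S, ∑ n ∈ iv (N - (k + 1 + l)) Rt, pQ J r R c k (k + 1 + l) n m
        = ((J : ℝ) + 1) * ∑ x ∈ iv N S, ∑ y ∈ iv N Rt,
          es r (R (k + 1 + l)) (k + 1 + l) (bP k (c k) (c (k + 1))) x y := by
      intro k hk
      rw [mem_Ico] at hk
      unfold pQ
      rw [← bs_av (show k + 1 ≤ N by omega) (show k + 1 + l ≤ N by omega)]
      simp only [← mul_sum]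
      ring
    rw [sum_congr rfl h1, ← mul_sum]
    exact mul_le_mul_of_nonneg_left (hQm l) (by positivity)

end inst

end

end Vale.Agent.P141.H377.Q
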