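import Vale.Agent.P141.H675.PhiX
import Vale.Agent.P141.H377.CapB

/-!
# P141, line A, flow part, hub `x1`: the caps of `b` on the grid

`phCap : PartS H636.FDU PhCap`, over `H377.B1.cap_RX`.
-/

namespace Vale.Agent.P141.H377

open Vale.Agent.P141.PL (cx)
open Vale.Agent.P141.H186.PS
open Vale.Agent.P141.H277.Phi
open Vale.Agent.P141.H675.PX

noncomputable section

open scoped Classical

/-- **The caps of `b` on the grid**, the statement of `H675.PX`. -/
theorem phCap : PartS H636.FDU PhCap := by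
  refine PartS.of_slot (fun _ => 1) ?_
  intro ι _ _ q n ez F1 F2 F3 o K x s r U g u v A b' C' R κ E h j e _ _ _ _ _ _ _ _ _ _ _ _ _ _ _
    _ _ _ _ _ _ _ _ _ _ _ _ hD _ _ _ _ _ _ _
  obtain ⟨_, _, Q1, Q2, Q3, v', hF⟩ := hD
  intro x0 k hk n' m'
  have e1 : tS q s r ^ 2 = 4 * q.th s r ^ 2 := Real.sq_sqrt (by positivity)
  rw [e1]
  exact B1.cap_RX hF (cx K x) h x0 k hk n' m'

end

end Vale.Agent.P141.H377
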